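import Vale.Agent.P181.SZ.Defs

set_option autoImplicit false

/-!
# P181, O2: the assembly of (I1), (I2), (I3) and ERR ≤ GAIN, abstractly
-/

namespace Vale.Agent.P181.O2.H104

open Vale.Agent.P181.SZ (PT)

/-- The small size types. -/
def Gd (a : ℕ) (k : Multiset ℕ) : Prop := (∀ y ∈ k, 10 * y ≤ a) ∧ 10 * Multiset.card k ≤ a

lemma mem_PT {w : ℕ} {k : Multiset ℕ} : k ∈ PT w ↔ k.sum = w ∧ ∀ x ∈ k, 2 ≤ x := by
  constructor
  · intro h
    rw [PT, Finset.mem_filter, Finset.mem_image] at h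
    obtain ⟨⟨p, -, rfl⟩, h2⟩ := h
    exact ⟨p.parts_sum, h2⟩
  · rintro ⟨h1, h2⟩
    rw [PT, Finset.mem_filter, Finset.mem_image]
    exact ⟨⟨⟨k, fun {i} hi => by have := h2 i hi; omega, h1⟩, Finset.mem_univ _, rfl⟩, h2⟩

lemma sum_biUnion_le {ι α : Type*} [DecidableEq ι] [DecidableEq α] (s : Finset ι)
    (t : ι → Finset α) (f : α → ℕ) :
    ∑ x ∈ s.biUnion t, f x ≤ ∑ i ∈ s, ∑ x ∈ t i, f x := by
  induction s using Finset.induction_on with
  | empty => simp
  | insert i s hi ih =>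
    rw [Finset.biUnion_insert, Finset.sum_insert hi]
    have e1 : ∑ x ∈ t i ∪ s.biUnion t, f x ≤ ∑ x ∈ t i, f x + ∑ x ∈ s.biUnion t, f x := by
      rw [← Finset.sum_union_inter]
      exact Nat.le_add_right _ _
    omega

open scoped Classical in
/-- Telescoping of (I3). -/
lemma tele {T : ℕ → ℕ} {f : ℕ → ℕ} {a b g : ℕ} (hab : a < b)
    (h : ∀ c, a < c → c ≤ b → T (c - 1) + f c + (if c = a + 1 then g else 0) ≤ T c) :
    T a + ∑ c ∈ Finset.Ioc a b, f c + g ≤ T b := by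
  obtain ⟨n, rfl⟩ : ∃ n, b = a + 1 + n := ⟨b - a - 1, by omega⟩
  clear hab
  induction n with
  | zero =>
    have h1 := h (a + 1) (by omega) (by omega)
    rw [if_pos rfl] at h1
    have e1 : Finset.Ioc a (a + 1 + 0) = {a + 1} := by
      ext x
      rw [Finset.mem_Ioc, Finset.mem_singleton]
      omega
    rw [e1, Finset.sum_singleton]
    have e2 : a + 1 - 1 = a := by omega
    rw [e2] at h1
    have e3 : a + 1 + 0 = a + 1 := rfl
    rw [e3]
    omega
  | succ n ih =>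
    have h1 := ih fun c hc1 hc2 => h c hc1 (by omega)
    have h2 := h (a + 1 + (n + 1)) (by omega) le_rfl
    rw [if_neg (by omega)] at h2
    have e1 : Finset.Ioc a (a + 1 + (n + 1)) = insert (a + 1 + (n + 1)) (Finset.Ioc a (a + 1 + n)) := by
      ext x
      rw [Finset.mem_insert, Finset.mem_Ioc, Finset.mem_Ioc]
      omega
    rw [e1, Finset.sum_insert (by rw [Finset.mem_Ioc]; omega)]
    have e2 : a + 1 + (n + 1) - 1 = a + 1 + n := by omega
    rw [e2] at h2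
    omega

open scoped Classical in
/-- The size types with a letter larger than `a`. -/
lemma split {a b w : ℕ} (hab : a < b) (N : Multiset ℕ → ℕ) :
    ∑ K ∈ (PT w).filter (fun K => ∃ x ∈ K, a < x), N K ≤
      ∑ c ∈ Finset.Ioc a b, ∑ k ∈ (PT (w - c)).filter (Gd a), N (c ::ₘ k) +
        ∑ K ∈ (PT w).filter (fun K => ∃ x ∈ K, b < x ∧ Gd a (K.erase x)), N K +
        ∑ K ∈ (PT w).filter (fun K => ∃ x ∈ K, a < x ∧ ¬ Gd a (K.erase x)), N K := by
  have h1 : (PT w).filter (fun K => ∃ x ∈ K, a < x) ⊆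
      ((PT w).filter (fun K => ∃ x ∈ K, a < x ∧ x ≤ b ∧ Gd a (K.erase x)) ∪
        (PT w).filter (fun K => ∃ x ∈ K, b < x ∧ Gd a (K.erase x))) ∪
        (PT w).filter (fun K => ∃ x ∈ K, a < x ∧ ¬ Gd a (K.erase x)) := by
    intro K hK
    rw [Finset.mem_filter] at hK
    obtain ⟨hK1, x, hx, hax⟩ := hK
    rw [Finset.mem_union, Finset.mem_union, Finset.mem_filter, Finset.mem_filter,
      Finset.mem_filter]
    by_cases hg : Gd a (K.erase x)
    · left
      rcases Nat.lt_or_ge b x with hb | hb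
      · exact Or.inr ⟨hK1, x, hx, hb, hg⟩
      · exact Or.inl ⟨hK1, x, hx, hax, hb, hg⟩
    · exact Or.inr ⟨hK1, x, hx, hax, hg⟩
  have h2 : (PT w).filter (fun K => ∃ x ∈ K, a < x ∧ x ≤ b ∧ Gd a (K.erase x)) ⊆
      (Finset.Ioc a b).biUnion fun c => ((PT (w - c)).filter (Gd a)).image fun k => c ::ₘ k := by
    intro K hK
    rw [Finset.mem_filter, mem_PT] at hK
    obtain ⟨⟨hK1, hK2⟩, x, hx, hax, hxb, hg⟩ := hK
    rw [Finset.mem_biUnion]
    refine ⟨x, Finset.mem_Ioc.2 ⟨hax, hxb⟩, ?_⟩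
    rw [Finset.mem_image]
    refine ⟨K.erase x, ?_, Multiset.cons_erase hx⟩
    rw [Finset.mem_filter, mem_PT]
    refine ⟨⟨?_, fun y hy => hK2 y (Multiset.mem_of_mem_erase hy)⟩, hg⟩
    have e1 : (x ::ₘ K.erase x).sum = w := by rw [Multiset.cons_erase hx, hK1]
    rw [Multiset.sum_cons] at e1
    omega
  calc _ ≤ ∑ K ∈ ((PT w).filter (fun K => ∃ x ∈ K, a < x ∧ x ≤ b ∧ Gd a (K.erase x)) ∪
        (PT w).filter (fun K => ∃ x ∈ K, b < x ∧ Gd a (K.erase x))) ∪
        (PT w).filter (fun K => ∃ x ∈ K, a < x ∧ ¬ Gd a (K.erase x)), N K :=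
        Finset.sum_le_sum_of_subset h1
    _ ≤ ∑ K ∈ (PT w).filter (fun K => ∃ x ∈ K, a < x ∧ x ≤ b ∧ Gd a (K.erase x)), N K +
        ∑ K ∈ (PT w).filter (fun K => ∃ x ∈ K, b < x ∧ Gd a (K.erase x)), N K +
        ∑ K ∈ (PT w).filter (fun K => ∃ x ∈ K, a < x ∧ ¬ Gd a (K.erase x)), N K := by
        have e1 : ∀ (A B : Finset (Multiset ℕ)), ∑ K ∈ A ∪ B, N K ≤
            ∑ K ∈ A, N K + ∑ K ∈ B, N K := fun A B => by
          rw [← Finset.sum_union_inter]
          exact Nat.le_add_right _ _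
        exact (e1 _ _).trans (Nat.add_le_add_right (e1 _ _) _)
    _ ≤ _ := by
        apply Nat.add_le_add_right
        apply Nat.add_le_add_right
        refine (Finset.sum_le_sum_of_subset h2).trans ?_
        refine (sum_biUnion_le _ _ _).trans ?_
        refine Finset.sum_le_sum fun c _ => ?_
        rw [Finset.sum_image]
        intro k1 _ k2 _ h
        exact (Multiset.cons_inj_right c).1 h

open scoped Classical in
/-- **The assembly.** -/
theorem core {T : ℕ → ℕ → ℕ} {a b w g : ℕ} (hab : a < b) (N : Multiset ℕ → ℕ)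
    (h1 : T b w ≤ T b a + ∑ K ∈ (PT w).filter (fun K => ∃ x ∈ K, a < x), N K)
    (h2 : T a b + ∑ K ∈ (PT w).filter (fun K => ∃ x ∈ K, b < x ∧ Gd a (K.erase x)), N K ≤ T a w)
    (h3 : ∀ c, a < c → c ≤ b → T (c - 1) w + ∑ k ∈ (PT (w - c)).filter (Gd a), N (c ::ₘ k) +
      (if c = a + 1 then g else 0) ≤ T c w)
    (h4 : ∑ K ∈ (PT w).filter (fun K => ∃ x ∈ K, a < x ∧ ¬ Gd a (K.erase x)), N K ≤ g) :
    T a b ≤ T b a := by
  have h5 := split (w := w) hab N
  have h6 := tele (T := fun c => T c w) (g := g) hab h3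
  omega

end Vale.Agent.P181.O2.H104
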