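import Mathlib

set_option autoImplicit false

/-!
# P181, O2: the final numbers

`L = 1 + log a`, `C L ^ 2 w ≤ a ^ 2` gives a number `K` of growth steps with `(w + 2) ^ c ≤ 5 ^ K`
and `Q K (√w + 1) ≤ a`.
-/

namespace Vale.Agent.P181.O2.H104

/-- The number of growth steps. -/
theorem num {c Q a w : ℕ} (hc : 1 ≤ c) (hw : 1 ≤ w)
    (h : (6 * (Q : ℝ) * c + 2) ^ 2 * (1 + Real.log a) ^ 2 * (w : ℝ) ≤ (a : ℝ) ^ 2) :
    ∃ K : ℕ, 1 ≤ K ∧ (w + 2) ^ c ≤ 5 ^ K ∧ Q * K * (Nat.sqrt w + 1) ≤ a := by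
  have hlog : 0 ≤ Real.log a := Real.log_natCast_nonneg a
  obtain ⟨L, hL⟩ : ∃ L : ℝ, L = 1 + Real.log a := ⟨_, rfl⟩
  have hL1 : 1 ≤ L := by
    rw [hL]
    linarith
  have hL0 : 0 < L := by linarith
  rw [← hL] at h
  have hc1 : (1 : ℝ) ≤ c := by exact_mod_cast hc
  have hQ0 : (0 : ℝ) ≤ Q := Nat.cast_nonneg _
  have hw1 : (1 : ℝ) ≤ w := by exact_mod_cast hw
  have ha0 : (0 : ℝ) ≤ a := Nat.cast_nonneg _
  have hb : (1 : ℝ) ≤ (6 * (Q : ℝ) * c + 2) ^ 2 := by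
    apply one_le_pow₀
    nlinarith [mul_nonneg hQ0 (by linarith : (0 : ℝ) ≤ c)]
  have hb4 : (4 : ℝ) ≤ (6 * (Q : ℝ) * c + 2) ^ 2 := by
    nlinarith [mul_nonneg hQ0 (by linarith : (0 : ℝ) ≤ c)]
  have hLL : (1 : ℝ) ≤ L ^ 2 := one_le_pow₀ hL1
  have hwa : 4 * (w : ℝ) ≤ (a : ℝ) ^ 2 := by
    refine le_trans ?_ h
    apply mul_le_mul_of_nonneg_right _ (by linarith)
    nlinarith
  have ha1 : (1 : ℝ) ≤ a := by
    by_contra hcon
    have : (a : ℝ) ^ 2 < 1 := by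
      rw [sq_lt_one_iff₀ ha0]
      linarith
    linarith
  refine ⟨⌈2 * c * L⌉₊, ?_, ?_, ?_⟩
  · rw [Nat.one_le_ceil_iff]
    positivity
  · -- `(w + 2) ^ c ≤ 5 ^ K`
    have h1 : ((w : ℝ) + 2) ≤ Real.exp (2 * L) := by
      have e1 : Real.exp (2 * L) = Real.exp 2 * (a : ℝ) ^ 2 := by
        rw [hL, mul_add, Real.exp_add, mul_one]
        congr 1
        rw [← Real.exp_log (show (0 : ℝ) < a by linarith), ← Real.exp_nat_mul, Real.log_exp]
        norm_num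
      have e2 : (3 : ℝ) ≤ Real.exp 2 := by
        have := Real.add_one_le_exp (2 : ℝ)
        linarith
      rw [e1]
      nlinarith [sq_nonneg (a : ℝ)]
    have h2 : ((w : ℝ) + 2) ^ c ≤ Real.exp (2 * c * L) := by
      calc ((w : ℝ) + 2) ^ c ≤ (Real.exp (2 * L)) ^ c :=
            pow_le_pow_left₀ (by linarith) h1 _
        _ = Real.exp (2 * c * L) := by
            rw [← Real.exp_nat_mul]
            congr 1
            ring
    have h3 : Real.exp (2 * c * L) ≤ (5 : ℝ) ^ ⌈2 * c * L⌉₊ := by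
      calc Real.exp (2 * c * L) ≤ Real.exp (⌈2 * c * L⌉₊ : ℝ) :=
            Real.exp_le_exp.2 (Nat.le_ceil _)
        _ = (Real.exp 1) ^ ⌈2 * c * L⌉₊ := by
            rw [← Real.exp_nat_mul, mul_one]
        _ ≤ 5 ^ ⌈2 * c * L⌉₊ := by
            apply pow_le_pow_left₀ (Real.exp_pos _).le
            have := Real.exp_one_lt_d9
            linarith
    have h4 : (((w + 2) ^ c : ℕ) : ℝ) ≤ ((5 ^ ⌈2 * c * L⌉₊ : ℕ) : ℝ) := by
      push_cast
      exact h2.trans h3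
    exact_mod_cast h4
  · -- `Q K (√w + 1) ≤ a`
    have h1 : ((Nat.sqrt w + 1 : ℕ) : ℝ) ≤ 2 * Real.sqrt w := by
      have e1 : (Nat.sqrt w : ℝ) ≤ Real.sqrt w := Real.nat_sqrt_le_real_sqrt
      have e2 : 1 ≤ Real.sqrt w := Real.one_le_sqrt.2 hw1
      push_cast
      linarith
    have h2 : ((⌈2 * c * L⌉₊ : ℕ) : ℝ) ≤ 3 * c * L := by
      have e1 : (1 : ℝ) ≤ c * L := one_le_mul_of_one_le_of_one_le hc1 hL1
      have e2 := (Nat.ceil_lt_add_one (show (0 : ℝ) ≤ 2 * c * L by positivity)).le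
      nlinarith
    have h3 : ((Q * ⌈2 * c * L⌉₊ * (Nat.sqrt w + 1) : ℕ) : ℝ) ≤
        (6 * (Q : ℝ) * c) * L * Real.sqrt w := by
      have e1 : ((Q * ⌈2 * c * L⌉₊ * (Nat.sqrt w + 1) : ℕ) : ℝ) =
          (Q : ℝ) * (⌈2 * c * L⌉₊ : ℝ) * ((Nat.sqrt w + 1 : ℕ) : ℝ) := by push_cast; ring
      rw [e1]
      calc (Q : ℝ) * (⌈2 * c * L⌉₊ : ℝ) * ((Nat.sqrt w + 1 : ℕ) : ℝ) ≤
            (Q : ℝ) * (3 * c * L) * (2 * Real.sqrt w) := by
            apply mul_le_mul _ h1 (Nat.cast_nonneg _) (by positivity)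
            exact mul_le_mul_of_nonneg_left h2 hQ0
        _ = (6 * (Q : ℝ) * c) * L * Real.sqrt w := by ring
    have h4 : ((6 * (Q : ℝ) * c) * L * Real.sqrt w) ^ 2 ≤ (a : ℝ) ^ 2 := by
      refine le_trans ?_ h
      have e1 : ((6 * (Q : ℝ) * c) * L * Real.sqrt w) ^ 2 =
          (6 * (Q : ℝ) * c) ^ 2 * L ^ 2 * w := by
        rw [mul_pow, mul_pow, Real.sq_sqrt (by linarith)]
      rw [e1]
      apply mul_le_mul_of_nonneg_right _ (by linarith)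
      apply mul_le_mul_of_nonneg_right _ (by positivity)
      apply pow_le_pow_left₀ (by positivity)
      linarith
    have h5 : (6 * (Q : ℝ) * c) * L * Real.sqrt w ≤ a :=
      le_of_sq_le_sq h4 ha0
    exact_mod_cast h3.trans h5

end Vale.Agent.P181.O2.H104
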