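import Vale.Agent.P181.O2.H457.Uni
import Vale.Agent.P181.O2.H104.Num
import Vale.Agent.P181.SZR1b.Defs
import Vale.Agent.P181.SZR1a.Main
import Vale.Agent.P181.SZR2a.LowerA
import Vale.Agent.P181.H534.ThinHW
import Vale.Agent.P181.DG8.Main

set_option autoImplicit false

/-!
# P181, O2: from the translation invariant statement to `Small2`
-/

namespace Vale.Agent.P181.O2.H104

open Vale.Agent.P181.T4 (ex low ex_of_lt)
open Vale.Agent.P181.H280 (plethMult)
open Vale.Agent.P181.PL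
open Vale.Agent.P181.SZ (TI tl UpperA LowerA)
open Vale.Agent.P181.O2.H457 (Small2)

/-- The statement for translation invariant polynomials: `K` growth steps. -/
def TIS (c Q : ℕ) : Prop := ∀ (a b m w D K : ℕ) (mu : Fin (m + 2) → ℕ), Antitone mu →
  ∑ i, mu i = w → ∑ i : Fin (m + 1), mu i.succ = D → 2 ≤ mu 1 → a < b → 2 * a ≤ w →
  Q * D ≤ a → 1 ≤ K → (w + 2) ^ c ≤ 5 ^ K → Q * K * (Nat.sqrt w + 1) ≤ a →
  Module.finrank ℂ (TI a b (m + 2) mu) ≤ Module.finrank ℂ (TI b a (m + 2) mu)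

/-- From the translation invariant statement to `Small2`. -/
theorem small2_of {c Q : ℕ} (hc : 1 ≤ c) (hQ : 1 ≤ Q) (hUA : UpperA) (hLA : LowerA)
    (h : TIS c Q) : Small2 := by
  have hc0 : (1 : ℝ) ≤ c := by exact_mod_cast hc
  have hQ0 : (1 : ℝ) ≤ Q := by exact_mod_cast hQ
  have hQc : (1 : ℝ) ≤ (Q : ℝ) * c := one_le_mul_of_one_le_of_one_le hQ0 hc0
  refine ⟨(6 * (Q : ℝ) * c + 2) ^ 2, 2, ?_, ?_⟩
  · apply one_le_pow₀
    nlinarith
  intro a b hab n lam h2a hbD hw hD
  by_cases hz : plethMult a b n lam = 0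
  · rw [hz]
    exact Nat.zero_le _
  obtain ⟨hanti, hsum, _⟩ := H530.zero_stmt a b n lam hz
  have hD2 : 2 ≤ n := by
    by_contra hn
    have : dn lam 2 = 0 := dn_ge lam (by omega)
    omega
  by_cases h2 : ex lam 2 ≤ 1
  · -- a column below row two
    obtain ⟨k, rfl⟩ : ∃ k, n = k + 2 := ⟨n - 2, by omega⟩
    refine (H534.plethMult_eq lam fun i => ?_).le
    have e1 : lam i.succ.succ = ex lam ((i : ℕ) + 2) := by
      rw [exlt lam (by omega : (i : ℕ) + 2 < k + 2)]
      rfl
    have e2 := exanti hanti (show 2 ≤ (i : ℕ) + 2 by omega)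
    omega
  · have hn : 3 ≤ n := by
      by_contra hn
      rw [exge lam (by omega)] at h2
      omega
    obtain ⟨m, rfl⟩ : ∃ m, n = m + 3 := ⟨n - 3, by omega⟩
    have ha : 1 ≤ a := by
      by_contra hcon
      have h0 : a = 0 := by omega
      rw [h0, zero_mul] at hsum
      have h3 : lam ⟨2, by omega⟩ = 0 := by
        have := Finset.single_le_sum (f := lam) (fun _ _ => Nat.zero_le _)
          (Finset.mem_univ (⟨2, by omega⟩ : Fin (m + 3)))
        omega
      rw [exlt lam (by omega), h3] at h2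
      omega
    have hw1 : 1 ≤ dn lam 1 := by omega
    obtain ⟨K, hK1, hK2, hK3⟩ := num (c := c) (Q := Q) hc hw1 hw
    refine (hUA a b (m + 2) lam).trans (le_trans ?_ (hLA a b (m + 2) lam hsum))
    have e1 := dn_succ lam 1
    have e2 : dn lam (1 + 1) = dn lam 2 := rfl
    have e3 : dn lam 1 = ∑ i, tl lam i := DG8.dn_one lam
    have e4 : ex lam 1 = tl lam 0 := by
      rw [exlt lam (by omega : 1 < m + 3)]
      rfl
    have e5 : ∑ i, tl lam i = tl lam 0 + ∑ i : Fin (m + 1), tl lam i.succ := Fin.sum_univ_succ _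
    have e6 : ex lam 2 = tl lam 1 := by
      rw [exlt lam (by omega : 2 < m + 3)]
      rfl
    apply h a b m (dn lam 1) (dn lam 2) K (tl lam) _ e3.symm (by omega) (by omega) hab h2a _
      hK1 hK2 hK3
    · intro i j hij
      exact hanti (Fin.succ_le_succ_iff.2 hij)
    · have h5 : (Q : ℝ) * (dn lam 2 : ℝ) ≤ a := by
        refine le_trans ?_ hD
        apply mul_le_mul_of_nonneg_right _ (Nat.cast_nonneg _)
        nlinarith
      exact_mod_cast h5

/-- Without hypotheses on the bridge. -/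
theorem small2 {c Q : ℕ} (hc : 1 ≤ c) (hQ : 1 ≤ Q) (h : TIS c Q) : Small2 :=
  small2_of hc hQ (fun a b m lam => SZ.R1a a b m lam) SZR2a.lowerA h

end Vale.Agent.P181.O2.H104
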