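import Vale.Agent.P181.O2.Defs
import Vale.Agent.P181.O2.H104.Small

set_option autoImplicit false

/-!
# P181, O2: `Small2` from the reduction and the counting result
-/

namespace Vale.Agent.P181.O2.H104

open Vale.Agent.P181.SZ (TI nn PT)
open Vale.Agent.P181.O2 (Red ErrK Good n2)

open scoped Classical in
/-- ERR ≤ GAIN, with `K` growth steps. -/
def CntS (c Q : ℕ) : Prop := ∀ (a m w D K : ℕ) (mu : Fin (m + 2) → ℕ), Antitone mu →
  ∑ i, mu i = w → ∑ i : Fin (m + 1), mu i.succ = D → 2 ≤ mu 1 → 2 * a ≤ w →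
  Q * D ≤ a → 1 ≤ K → (w + 2) ^ c ≤ 5 ^ K → Q * K * (Nat.sqrt w + 1) ≤ a →
  ∃ h, 10 * h ≤ a ∧ 100 ≤ a ∧ ∑ K ∈ (PT w).filter (ErrK h a), nn (m + 2) mu K ≤
    ∑ k ∈ (PT (w - (a + 2))).filter (Good h), n2 (m + 2) a mu k

theorem tis_of {c Q : ℕ} (hR : Red) (h : CntS c Q) : TIS c Q := by
  intro a b m w D K mu h1 h2 h3 h4 h5 h6 h7 h8 h9 h10
  obtain ⟨r, hr, ha, hc⟩ := h a m w D K mu h1 h2 h3 h4 h6 h7 h8 h9 h10
  subst h2
  exact hR a b r (m + 2) mu h5 hr ha (by convert hc)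

/-- **The last step.** -/
theorem small2_fin {c Q : ℕ} (hc : 1 ≤ c) (hQ : 1 ≤ Q) (hR : Red) (h : CntS c Q) :
    H457.Small2 := small2 hc hQ (tis_of hR h)

end Vale.Agent.P181.O2.H104
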