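import Vale.Agent.P181.O2.H104.Core
import Vale.Agent.P181.O2.H247.Up
import Vale.Agent.P181.O2.H247.Lo
import Vale.Agent.P181.O2.Defs

set_option autoImplicit false

/-!
# P181, O2: the reduction from (A4) alone
-/

namespace Vale.Agent.P181.O2.H104

open Vale.Agent.P181.SZ (PT nn TI)

open scoped Classical in
/-- The size types with a letter larger than `a`. -/
lemma splitG {a b w : ℕ} (G : Multiset ℕ → Prop) (N : Multiset ℕ → ℕ) :
    ∑ K ∈ (PT w).filter (fun K => ∃ x ∈ K, a < x), N K ≤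
      ∑ c ∈ Finset.Ioc a b, ∑ k ∈ (PT (w - c)).filter G, N (c ::ₘ k) +
        ∑ K ∈ (PT w).filter (fun K => ∃ x ∈ K, b < x ∧ G (K.erase x)), N K +
        ∑ K ∈ (PT w).filter (fun K => ∃ x ∈ K, a < x ∧ ¬ G (K.erase x)), N K := by
  have h1 : (PT w).filter (fun K => ∃ x ∈ K, a < x) ⊆
      ((PT w).filter (fun K => ∃ x ∈ K, a < x ∧ x ≤ b ∧ G (K.erase x)) ∪
        (PT w).filter (fun K => ∃ x ∈ K, b < x ∧ G (K.erase x))) ∪
        (PT w).filter (fun K => ∃ x ∈ K, a < x ∧ ¬ G (K.erase x)) := by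
    intro K hK
    rw [Finset.mem_filter] at hK
    obtain ⟨hK1, x, hx, hax⟩ := hK
    rw [Finset.mem_union, Finset.mem_union, Finset.mem_filter, Finset.mem_filter,
      Finset.mem_filter]
    by_cases hg : G (K.erase x)
    · left
      rcases Nat.lt_or_ge b x with hb | hb
      · exact Or.inr ⟨hK1, x, hx, hb, hg⟩
      · exact Or.inl ⟨hK1, x, hx, hax, hb, hg⟩
    · exact Or.inr ⟨hK1, x, hx, hax, hg⟩
  have h2 : (PT w).filter (fun K => ∃ x ∈ K, a < x ∧ x ≤ b ∧ G (K.erase x)) ⊆
      (Finset.Ioc a b).biUnion fun c => ((PT (w - c)).filter G).image fun k => c ::ₘ k := by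
    intro K hK
    rw [Finset.mem_filter, mem_PT] at hK
    obtain ⟨⟨hK1, hK2⟩, x, hx, hax, hxb, hg⟩ := hK
    rw [Finset.mem_biUnion]
    refine ⟨x, Finset.mem_Ioc.2 ⟨hax, hxb⟩, ?_⟩
    rw [Finset.mem_image]
    refine ⟨K.erase x, ?_, Multiset.cons_erase hx⟩
    rw [Finset.mem_filter, mem_PT]
    refine ⟨⟨?_, fun y hy => hK2 y (Multiset.mem_of_mem_erase hy)⟩, hg⟩
    have e1 : (x ::ₘ K.erase x).sum = w := by rw [Multiset.cons_erase hx, hK1]
    rw [Multiset.sum_cons] at e1
    omega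
  calc _ ≤ ∑ K ∈ ((PT w).filter (fun K => ∃ x ∈ K, a < x ∧ x ≤ b ∧ G (K.erase x)) ∪
        (PT w).filter (fun K => ∃ x ∈ K, b < x ∧ G (K.erase x))) ∪
        (PT w).filter (fun K => ∃ x ∈ K, a < x ∧ ¬ G (K.erase x)), N K :=
        Finset.sum_le_sum_of_subset h1
    _ ≤ ∑ K ∈ (PT w).filter (fun K => ∃ x ∈ K, a < x ∧ x ≤ b ∧ G (K.erase x)), N K +
        ∑ K ∈ (PT w).filter (fun K => ∃ x ∈ K, b < x ∧ G (K.erase x)), N K +
        ∑ K ∈ (PT w).filter (fun K => ∃ x ∈ K, a < x ∧ ¬ G (K.erase x)), N K := by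
        have e1 : ∀ (A B : Finset (Multiset ℕ)), ∑ K ∈ A ∪ B, N K ≤
            ∑ K ∈ A, N K + ∑ K ∈ B, N K := fun A B => by
          rw [← Finset.sum_union_inter]
          exact Nat.le_add_right _ _
        exact (e1 _ _).trans (Nat.add_le_add_right (e1 _ _) _)
    _ ≤ _ := by
        apply Nat.add_le_add_right
        apply Nat.add_le_add_right
        refine (Finset.sum_le_sum_of_subset h2).trans ?_
        refine (sum_biUnion_le _ _ _).trans ?_
        refine Finset.sum_le_sum fun c _ => ?_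
        rw [Finset.sum_image]
        intro k1 _ k2 _ h
        exact (Multiset.cons_inj_right c).1 h

open scoped Classical in
/-- **The assembly.** -/
theorem coreG {T : ℕ → ℕ → ℕ} {a b w g : ℕ} (hab : a < b) (G : Multiset ℕ → Prop)
    (N : Multiset ℕ → ℕ)
    (h1 : T b w ≤ T b a + ∑ K ∈ (PT w).filter (fun K => ∃ x ∈ K, a < x), N K)
    (h2 : T a b + ∑ K ∈ (PT w).filter (fun K => ∃ x ∈ K, b < x ∧ G (K.erase x)), N K ≤ T a w)
    (h3 : ∀ c, a < c → c ≤ b → T (c - 1) w + ∑ k ∈ (PT (w - c)).filter G, N (c ::ₘ k) +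
      (if c = a + 1 then g else 0) ≤ T c w)
    (h4 : ∑ K ∈ (PT w).filter (fun K => ∃ x ∈ K, a < x ∧ ¬ G (K.erase x)), N K ≤ g) :
    T a b ≤ T b a := by
  have h5 := splitG (a := a) (b := b) (w := w) G N
  have h6 := tele (T := fun c => T c w) (g := g) hab h3
  omega


/-- Only size types of total size `w` occur. -/
lemma nn_zero {m : ℕ} {mu : Fin m → ℕ} {k : Multiset ℕ} (h : k.sum ≠ ∑ i, mu i) :
    nn m mu k = 0 := by
  have h0 : SZ.PK m (Fin k.toList.length) (fun j => k.toList.get j) mu = ⊥ := by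
    rw [eq_bot_iff]
    intro f hf
    rw [Submodule.mem_bot]
    ext v
    rw [MvPolynomial.coeff_zero]
    by_contra hv
    apply h
    have h1 : ∑ i, ∑ j, v (i, j) = ∑ i, mu i :=
      Finset.sum_congr rfl fun i _ => hf.1.1 v hv i
    rw [Finset.sum_comm] at h1
    have h2 : ∑ j : Fin k.toList.length, ∑ i, v (i, j) = k.sum := by
      rw [Finset.sum_congr rfl fun j _ => hf.2.1 v hv j]
      have h3 : (List.ofFn fun j : Fin k.toList.length => k.toList.get j).sum =
          ∑ j : Fin k.toList.length, k.toList.get j := List.sum_ofFn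
      rw [← h3, List.ofFn_get, Multiset.sum_toList]
    rw [← h2, h1]
  rw [nn, h0, finrank_bot]

open scoped Classical in
/-- **(RED)** with `H247.h1` and `H247.lo` in place of (A1) and (A2). -/
theorem red4 (h4 : A4) : Red := by
  intro a b h m mu hab hh ha hE
  obtain ⟨w, hw⟩ : ∃ w, w = ∑ i, mu i := ⟨_, rfl⟩
  have e1 := H247.h1 a b m mu (by omega)
  have e2 := H247.lo a b m mu (by omega) (by omega)
  rw [← hw] at e1 e2 hE
  refine coreG (T := fun n d => Module.finrank ℂ (TI n d m mu)) (w := w) hab (Good h) (nn m mu)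
    e1 ?_ ?_ ?_ (g := ∑ k ∈ (PT (w - (a + 2))).filter (Good h), n2 m a mu k)
  · refine le_trans (Nat.add_le_add_left ?_ _) e2
    refine Finset.sum_le_sum_of_subset fun k hk => ?_
    rw [Finset.mem_filter] at hk ⊢
    obtain ⟨hk, x, hx, hbx, hg1, hg2⟩ := hk
    refine ⟨hk, x, hx, hbx, fun y hy => ?_, by omega⟩
    have := hg2 y hy
    omega
  · intro c hac hcb
    obtain ⟨d, rfl⟩ : ∃ d, c = d + 1 := ⟨c - 1, by omega⟩
    have g1 := h4 d h m mu (by omega) (by omega)
    rw [← hw] at g1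
    have g2 : ∑ k ∈ (PT (w - (d + 1))).filter (Good h), nn m mu ((d + 1) ::ₘ k) ≤
        ∑ K ∈ (PT w).filter (LetK h (d + 1)), nn m mu K := by
      by_cases hdw : d + 1 ≤ w
      · rw [← Finset.sum_image (s := (PT (w - (d + 1))).filter (Good h))
          (g := fun k => (d + 1) ::ₘ k) (f := nn m mu)
          (fun k1 _ k2 _ h => (Multiset.cons_inj_right _).1 h)]
        refine Finset.sum_le_sum_of_subset fun K hK => ?_
        rw [Finset.mem_image] at hK
        obtain ⟨k, hk, rfl⟩ := hK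
        rw [Finset.mem_filter, mem_PT] at hk ⊢
        obtain ⟨⟨hk1, hk2⟩, hk3⟩ := hk
        refine ⟨⟨?_, ?_⟩, Multiset.mem_cons_self _ _, ?_⟩
        · rw [Multiset.sum_cons, hk1]
          omega
        · intro x hx
          rcases Multiset.mem_cons.1 hx with rfl | hx
          · omega
          · exact hk2 x hx
        · rwa [Multiset.erase_cons_head]
      · have g3 : ∀ k ∈ (PT (w - (d + 1))).filter (Good h), nn m mu ((d + 1) ::ₘ k) = 0 := by
          intro k hk
          have h5 : (w : ℕ) < ((d + 1) ::ₘ k).sum := by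
            rw [Multiset.sum_cons]
            omega
          exact nn_zero (by omega)
        rw [Finset.sum_eq_zero g3]
        exact Nat.zero_le _
    have g4 : (if d + 1 = a + 1 then ∑ k ∈ (PT (w - (a + 2))).filter (Good h), n2 m a mu k
        else 0) ≤ ∑ k ∈ (PT (w - (d + 2))).filter (Good h), n2 m d mu k := by
      split_ifs with hd
      · have : d = a := by omega
        rw [this]
      · exact Nat.zero_le _
    change Module.finrank ℂ (TI d w m mu) +
      ∑ k ∈ (PT (w - (d + 1))).filter (Good h), nn m mu ((d + 1) ::ₘ k) +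
      (if d + 1 = a + 1 then ∑ k ∈ (PT (w - (a + 2))).filter (Good h), n2 m a mu k else 0) ≤
      Module.finrank ℂ (TI (d + 1) w m mu)
    omega
  · exact hE

end Vale.Agent.P181.O2.H104
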